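import Mathlib
import Vale.Agent.P142.Main
import Vale.Agent.P142.Area

/-
Integral means at `-2` are at most `9/8`; Brennan integrability up to `34/9`.
-/

open Complex Metric Set Filter Topology MeasureTheory

namespace Vale.Agent.Results.P142.BrennanBound

open Vale.Agent.P142 in
theorem result :
    (∀ f : ℂ → ℂ, DifferentiableOn ℂ f (ball 0 1) → InjOn f (ball 0 1) →
      f 0 = 0 → deriv f 0 = 1 →
      (∃ C : ℝ, ∀ r : ℝ, 0 ≤ r → r < 1 →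
        (1 / (2 * Real.pi)) * ∫ θ in (-Real.pi)..Real.pi,
          ‖deriv f ((r:ℂ) * Complex.exp (θ * Complex.I))‖ ^ (-2 : ℝ)
            ≤ C * (1 - r) ^ (-(9/8 : ℝ))) ∧
      limsup (fun r : ℝ => ((Real.log ((1 / (2 * Real.pi)) * ∫ θ in (-Real.pi)..Real.pi,
          ‖deriv f ((r:ℂ) * Complex.exp (θ * Complex.I))‖ ^ (-2 : ℝ)) /
            Real.log (1 / (1 - r)) : ℝ) : EReal)) (𝓝[<] 1) ≤ ((9/8 : ℝ) : EReal)) ∧
    (∀ f : ℂ → ℂ, DifferentiableOn ℂ f (ball 0 1) → InjOn f (ball 0 1) →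
      ∀ t : ℝ, -(16 / 9) < t → t ≤ 0 →
        ∫⁻ z in ball (0:ℂ) 1, ENNReal.ofReal (‖deriv f z‖ ^ t) < ⊤) ∧
    (∀ (W : Set ℂ) (φ : ℂ → ℂ), IsOpen W → DifferentiableOn ℂ φ W → BijOn φ W (ball 0 1) →
      ∀ s : ℝ, 2 ≤ s → s < 34 / 9 →
        ∫⁻ w in W, ENNReal.ofReal (‖deriv φ w‖ ^ s) < ⊤) := by
  have hD : DerivNe := fun _ _ hU hf hinj => deriv_ne_zero_of_injOn hU hf hinj
  have hA : AreaThm := fun U h hh Q a n K hQ => area_theorem U.diff U.inj U.map_zero hh Q a n K hQ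
  refine ⟨fun f hf hinj h0 h1 => ?_, fun f hf hinj t ht ht0 => disk_area hA hD hf hinj ht ht0,
    fun W φ hW hφ hb s hs hs' => domain_area hA hD hW hφ hb hs hs'⟩
  exact ⟨means hA ⟨f, hf, hinj, h0, h1, hD f _ isOpen_ball hf hinj⟩,
    beta hA ⟨f, hf, hinj, h0, h1, hD f _ isOpen_ball hf hinj⟩⟩

end Vale.Agent.Results.P142.BrennanBound
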